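import Vale.Agent.P057APFree.Base
import Vale.Agent.P057APFree.Prime

/-!
# Rankin's construction with a random bottom level
-/

namespace Vale.Agent.Results.P057.RankinRandomBase

open Finset Filter Real Topology Vale.Agent.P057APFree

lemma two_mul_sum_sub (M : ℕ) : 2 * ∑ i ∈ range M, (M - i) = M * (M + 1) := by
  induction M with
  | zero => simp
  | succ M ih =>
    rw [Finset.sum_range_succ']
    simp only [Nat.succ_sub_succ, Nat.sub_zero, mul_add, ih]
    ring

theorem chain (n k p : ℕ) (hn : 2 ≤ n) (hp : p.Prime) (hDp : 2 ^ (n - 1) + 2 ≤ p) (hpk : p ≤ k) :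
    ∀ s : ℕ, s ≤ n - 1 → Fam (1 + s)
      ((2 : ℝ) ^ n / (k + (2 : ℝ) ^ (n - 1)) * Real.log 2 ^ s
        * 2 ^ ∑ i ∈ range s, (n - 1 - i))
      (Free k (2 ^ (n - 1 - s))) := by
  have hlog2 : 0 < Real.log 2 := Real.log_pos one_lt_two
  intro s
  induction s with
  | zero =>
    intro _
    have h := fam_base (D := 2 ^ (n - 1)) hp hDp hpk
    have e : (2 : ℝ) * ((2 ^ (n - 1) : ℕ) : ℝ) = 2 ^ n := by
      push_cast
      rw [← pow_succ', show n - 1 + 1 = n by omega]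
    rw [e] at h
    simpa using h
  | succ s ih =>
    intro hs
    have hE : 2 ^ (n - 1 - s) = 2 * 2 ^ (n - 1 - (s + 1)) := by
      rw [← pow_succ']
      congr 1
      omega
    have hlt : 2 * 2 ^ (n - 1 - (s + 1)) < k := by
      have : 2 ^ (n - 1 - s) ≤ 2 ^ (n - 1) := Nat.pow_le_pow_right (by norm_num) (by omega)
      omega
    have hθ0 : (0 : ℝ) < (2 : ℝ) ^ n / (k + (2 : ℝ) ^ (n - 1)) := by positivity
    have h := fam_step (1 + s) k (2 ^ (n - 1 - (s + 1))) (2 ^ 2 ^ (n - 1 - (s + 1))) _ _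
      (by omega) (mul_pos (mul_pos hθ0 (pow_pos hlog2 _)) (by positivity))
      (Nat.le_self_pow (by positivity) 2) (ih (by omega))
      (fun D Q B M V hPB hV => lifts_generic k _ D Q B M V hlt hPB (hE ▸ hV))
    refine Eq.subst (motive := fun G => Fam (1 + (s + 1)) G (Free k (2 ^ (n - 1 - (s + 1))))) ?_ h
    rw [Finset.sum_range_succ, pow_add,
      show n - 1 - s = n - 1 - (s + 1) + 1 by omega]
    push_cast
    rw [Real.log_pow]
    push_cast
    ring

/-- For `n ≥ 2`, if a prime `p` satisfies `2^(n-1) + 2 ≤ p ≤ k`, the constant in the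
Rankin–O'Bryant exponent improves by the factor `(2^n / (k + 2^(n-1)))^(1/n) < 1`; such a prime
exists whenever `n ≥ 3` and `k ≥ 3 * 2^(n-2) + 2`. -/
theorem result :
    (∀ n k : ℕ, 2 ≤ n → (∃ p : ℕ, p.Prime ∧ 2 ^ (n - 1) + 2 ≤ p ∧ p ≤ k) →
      ((2 : ℝ) ^ n / (k + (2 : ℝ) ^ (n - 1))) ^ ((1 : ℝ) / n) < 1 ∧
      ∀ ε : ℝ, 0 < ε → ∀ᶠ N : ℕ in atTop, ∃ A : Finset ℕ, A ⊆ Finset.Icc 1 N ∧
        (N : ℝ) * Real.exp (-((n : ℝ) * 2 ^ (((n : ℝ) - 1) / 2) * Real.log 2 ^ (1 - 1 / (n : ℝ))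
            * ((2 : ℝ) ^ n / (k + (2 : ℝ) ^ (n - 1))) ^ ((1 : ℝ) / n) + ε)
          * Real.log N ^ ((1 : ℝ) / n)) ≤ A.card ∧
        ∀ a d : ℕ, 0 < d → ¬ ∀ j < k, a + j * d ∈ A) ∧
    ∀ n k : ℕ, 3 ≤ n → 3 * 2 ^ (n - 2) + 2 ≤ k → ∃ p : ℕ, p.Prime ∧ 2 ^ (n - 1) + 2 ≤ p ∧ p ≤ k := by
  refine ⟨fun n k hn hex => ?_, fun n k hn hk => ?_⟩
  · obtain ⟨p, hp, hDp, hpk⟩ := hex
    have hlog2 : 0 < Real.log 2 := Real.log_pos one_lt_two
    set θ : ℝ := (2 : ℝ) ^ n / (k + (2 : ℝ) ^ (n - 1)) with hθ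
    have hθ0 : 0 < θ := by positivity
    have hθ1 : θ < 1 := by
      rw [hθ, div_lt_one (by positivity)]
      have hk : 2 ^ (n - 1) + 2 ≤ k := hDp.trans hpk
      have hk' : (2 : ℝ) ^ (n - 1) + 2 ≤ k := by exact_mod_cast hk
      have he : (2 : ℝ) ^ n = 2 * 2 ^ (n - 1) := by
        rw [← pow_succ', show n - 1 + 1 = n by omega]
      linarith
    refine ⟨Real.rpow_lt_one hθ0.le hθ1 (by positivity), fun ε hε => ?_⟩
    have h := chain n k p hn hp hDp hpk (n - 1) le_rfl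
    rw [show 1 + (n - 1) = n by omega, show n - 1 - (n - 1) = 0 by omega, pow_zero, ← hθ] at h
    set S := ∑ i ∈ range (n - 1), (n - 1 - i) with hS
    have hC : (n : ℝ) * (θ * Real.log 2 ^ (n - 1) * (2 : ℝ) ^ S) ^ ((1 : ℝ) / n)
        = (n : ℝ) * 2 ^ (((n : ℝ) - 1) / 2) * Real.log 2 ^ (1 - 1 / (n : ℝ))
            * θ ^ ((1 : ℝ) / n) := by
      have hnR : (0 : ℝ) < n := by exact_mod_cast (show 0 < n by omega)
      have hSR : 2 * (S : ℝ) = (n : ℝ) * ((n : ℝ) - 1) := by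
        have e : 2 * S = (n - 1) * n := by
          have := two_mul_sum_sub (n - 1)
          rwa [show n - 1 + 1 = n by omega] at this
        have e' := congrArg (fun t : ℕ => (t : ℝ)) e
        push_cast [Nat.cast_sub (show 1 ≤ n by omega)] at e'
        linarith
      rw [Real.mul_rpow (by positivity) (by positivity), Real.mul_rpow hθ0.le (by positivity),
        ← Real.rpow_natCast (Real.log 2), ← Real.rpow_natCast (2 : ℝ) S,
        ← Real.rpow_mul hlog2.le, ← Real.rpow_mul (by norm_num)]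
      have e1 : ((n - 1 : ℕ) : ℝ) * ((1 : ℝ) / n) = 1 - 1 / (n : ℝ) := by
        push_cast [Nat.cast_sub (show 1 ≤ n by omega)]
        field_simp
      have e2 : (S : ℝ) * ((1 : ℝ) / n) = ((n : ℝ) - 1) / 2 := by
        field_simp
        linarith
      rw [e1, e2]
      ring
    filter_upwards [h ε hε] with N hN
    obtain ⟨A, hAs, hAf, hAc⟩ := hN
    refine ⟨A.map (addRightEmbedding 1), ?_, ?_, ?_⟩
    · intro y hy
      obtain ⟨b, hb, rfl⟩ := Finset.mem_map.mp hy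
      have := mem_range.mp (hAs hb)
      simp only [addRightEmbedding_apply, mem_Icc]
      omega
    · rw [Finset.card_map, ← hC]
      exact hAc
    · intro a d hd hall
      have hk2 : 2 ≤ k := (Nat.le_add_left 2 _).trans (hDp.trans hpk)
      obtain ⟨b, hb, hba⟩ := Finset.mem_map.mp (hall 0 (by omega))
      simp only [addRightEmbedding_apply, zero_mul, add_zero] at hba
      refine free_one_noAP (by omega) hAf b d hd (fun j hj => ?_)
      obtain ⟨c, hc, hca⟩ := Finset.mem_map.mp (hall j hj)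
      simp only [addRightEmbedding_apply] at hca
      have : b + j * d = c := by omega
      rw [this]
      exact hc
  · obtain ⟨p, hp, h1, h2⟩ := exists_prime_three_halves hn
    exact ⟨p, hp, h1, h2.trans hk⟩

end Vale.Agent.Results.P057.RankinRandomBase
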